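import Vale.Agent.Lib.P074e.E1ofE3

open MeasureTheory ENNReal
open scoped NNReal RealInnerProductSpace

namespace Vale.Agent.Lib.P074e
open Vale.Agent.Lib.P074q

variable {d : ℕ}

/-- The coordinate estimate on the inner body. -/
theorem coord_est_sub {K A : Set (E d)} {R : ℝ≥0} (hKm : MeasurableSet K) (hKfin : volume K ≠ ⊤)
    (hA : MeasurableSet A) (hAK : A ⊆ K) {r : ℝ} (hr : 0 < r) (j : Fin d)
    (hAw : ∀ x ∈ A, x + EuclideanSpace.single j r ∈ K)
    {T S : E d → E d} (hT : Measurable T) (hS : Measurable S)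
    {a a' : E d → ℝ} (ca : Continuous a) (ca' : Continuous a')
    (btj : ∀ᵐ x ∂(volume.restrict K), |T x j| ≤ R) (bsj : ∀ᵐ x ∂(volume.restrict K), |S x j| ≤ R)
    (t1 : ∀ᵐ x ∂(volume.restrict K), ∀ z, a x + ⟪T x, z - x⟫ ≤ a z)
    (t2 : ∀ᵐ x ∂(volume.restrict K), ∀ z, a' x + ⟪S x, z - x⟫ ≤ a' z)
    {c ε : ℝ} (hk : ∀ x ∈ K, |a' x - a x - c| ≤ ε) :
    r * ∫ x in A, (S x j - T x j) ^ 2 ≤
      (8 * R * ε + 8 * R ^ 2 * r) * ((volume K).toReal - (volume A).toReal) := by
  set w : E d := EuclideanSpace.single j r with hw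
  set β : ℝ := (volume K).toReal - (volume A).toReal with hβ
  have hβ0 : 0 ≤ β := by
    have := ENNReal.toReal_mono hKfin (measure_mono hAK)
    linarith
  set tj : E d → ℝ := fun x => T x j with htj
  set sj : E d → ℝ := fun x => S x j with hsj
  set k : E d → ℝ := fun x => a' x - a x - c with hkdef
  set F : E d → ℝ := fun x => (sj x - tj x) * k x with hF
  have mtj : Measurable tj := (EuclideanSpace.proj j).continuous.measurable.comp hT
  have msj : Measurable sj := (EuclideanSpace.proj j).continuous.measurable.comp hS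
  have mk : Measurable k :=
    ((ca'.sub ca).sub continuous_const).measurable
  have mF : Measurable F := (msj.sub mtj).mul mk
  rcases K.eq_empty_or_nonempty with hKe | ⟨xK, hxK⟩
  · have hAe : A = ∅ := by
      rw [hKe] at hAK
      exact Set.subset_empty_iff.mp hAK
    simp [hβ, hKe, hAe]
  have hε : 0 ≤ ε := (abs_nonneg _).trans (hk xK hxK)
  have hR0 : (0 : ℝ) ≤ R := R.coe_nonneg
  have bF : ∀ᵐ x ∂(volume.restrict K), |F x| ≤ 2 * R * ε := by
    filter_upwards [btj, bsj, ae_restrict_mem hKm] with x h3 h4 hx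
    simp only [hF, abs_mul]
    have h5 : |sj x - tj x| ≤ 2 * R := by
      have := abs_sub (sj x) (tj x)
      linarith
    exact mul_le_mul h5 (hk x hx) (abs_nonneg _) (by positivity)
  -- good points
  have hG : ∀ᵐ x ∂(volume.restrict K), (|T x j| ≤ R ∧ |S x j| ≤ R) ∧
      ((∀ z, a x + ⟪T x, z - x⟫ ≤ a z) ∧ ∀ z, a' x + ⟪S x, z - x⟫ ≤ a' z) := by
    filter_upwards [btj, bsj, t1, t2] with x g1 g2 g3 g4
    exact ⟨⟨g1, g2⟩, g3, g4⟩
  have hGA := ae_restrict_of_ae_restrict_of_subset hAK hG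
  have hGAw : ∀ᵐ x ∂(volume.restrict A), (|T (x + w) j| ≤ R ∧ |S (x + w) j| ≤ R) ∧
      ((∀ z, a (x + w) + ⟪T (x + w), z - (x + w)⟫ ≤ a z) ∧
        ∀ z, a' (x + w) + ⟪S (x + w), z - (x + w)⟫ ≤ a' z) := by
    have g1 := (ae_restrict_iff' hKm).mp hG
    have g2 := (measurePreserving_add_right (volume : Measure (E d)) w).quasiMeasurePreserving.ae g1
    rw [ae_restrict_iff' hA]
    filter_upwards [g2] with x hx hxA
    exact hx (hAw x hxA)
  have key : ∀ᵐ x ∂(volume.restrict A), r * (sj x - tj x) ^ 2 ≤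
      (F (x + w) - F x) + (ε + 2 * R * r) * ((tj (x + w) - tj x) + (sj (x + w) - sj x)) := by
    filter_upwards [hGA, hGAw, ae_restrict_mem hA] with x g g' hxA
    obtain ⟨⟨g1, g2⟩, g3, g4⟩ := g
    obtain ⟨⟨_, _⟩, g3', g4'⟩ := g'
    have f1 := g3 (x + w)
    have f2 := g3' x
    have f3 := g4 (x + w)
    have f4 := g4' x
    have e1 : x + w - x = w := by abel
    have e2 : x - (x + w) = -w := by abel
    rw [e1, real_inner_comm, hw, inner_single_right_real] at f1 f3
    rw [e2, inner_neg_right, real_inner_comm, hw, inner_single_right_real] at f2 f4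
    refine pointwise_fd (da := a (x + w) - a x) (da' := a' (x + w) - a' x) hr
      g1 g2 ?_ ?_ ?_ ?_ ?_ (hk _ (hAw x hxA))
    · simp only [htj, hw]; linarith
    · simp only [htj, hw]; linarith
    · simp only [hsj, hw]; linarith
    · simp only [hsj, hw]; linarith
    · simp only [hkdef]; ring
  obtain ⟨iF, iFw⟩ := shift_integrable hKm hA hKfin w hAK hAw mF bF
  obtain ⟨it, itw⟩ := shift_integrable hKm hA hKfin w hAK hAw mtj btj
  obtain ⟨is, isw⟩ := shift_integrable hKm hA hKfin w hAK hAw msj bsj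
  have dF := shift_diff hA hKfin w hAK hAw mF bF
  have dt := shift_diff hA hKfin w hAK hAw mtj btj
  have ds := shift_diff hA hKfin w hAK hAw msj bsj
  have hint : ∫ x in A, r * (sj x - tj x) ^ 2 ≤
      ∫ x in A, ((F (x + w) - F x) +
        (ε + 2 * R * r) * ((tj (x + w) - tj x) + (sj (x + w) - sj x))) := by
    apply integral_mono_of_nonneg
    · exact Filter.Eventually.of_forall (fun x => by positivity)
    · exact (iFw.sub iF).add (((itw.sub it).add (isw.sub is)).const_mul _)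
    · exact key
  rw [integral_const_mul] at hint
  have e1 : ∫ x in A, ((F (x + w) - F x) +
        (ε + 2 * R * r) * ((tj (x + w) - tj x) + (sj (x + w) - sj x))) =
      ((∫ x in A, F (x + w)) - ∫ x in A, F x) + (ε + 2 * R * r) *
        (((∫ x in A, tj (x + w)) - ∫ x in A, tj x) + ((∫ x in A, sj (x + w)) - ∫ x in A, sj x)) := by
    have i1 : Integrable (fun x => F (x + w) - F x) (volume.restrict A) := iFw.sub iF
    have i2 : Integrable (fun x => tj (x + w) - tj x) (volume.restrict A) := itw.sub it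
    have i3 : Integrable (fun x => sj (x + w) - sj x) (volume.restrict A) := isw.sub is
    have i4 : Integrable (fun x => (tj (x + w) - tj x) + (sj (x + w) - sj x))
        (volume.restrict A) := i2.add i3
    have i5 : Integrable (fun x => (ε + 2 * R * r) * ((tj (x + w) - tj x) + (sj (x + w) - sj x)))
        (volume.restrict A) := i4.const_mul _
    rw [integral_add i1 i5, integral_sub iFw iF, integral_const_mul, integral_add i2 i3,
      integral_sub itw it, integral_sub isw is]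
  rw [e1] at hint
  have hc : 0 ≤ ε + 2 * R * r := by positivity
  have dF' := (le_abs_self _).trans dF
  have dt' := (le_abs_self _).trans dt
  have ds' := (le_abs_self _).trans ds
  rw [← hβ] at dF' dt' ds'
  have h5 : (ε + 2 * R * r) *
        (((∫ x in A, tj (x + w)) - ∫ x in A, tj x) + ((∫ x in A, sj (x + w)) - ∫ x in A, sj x)) ≤
      (ε + 2 * R * r) * (2 * R * β + 2 * R * β) :=
    mul_le_mul_of_nonneg_left (add_le_add dt' ds') hc
  calc r * ∫ x in A, (S x j - T x j) ^ 2 ≤ 2 * (2 * R * ε) * β +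
        (ε + 2 * R * r) * (2 * R * β + 2 * R * β) := by
        have : (∫ x in A, (S x j - T x j) ^ 2) = ∫ x in A, (sj x - tj x) ^ 2 := rfl
        rw [this]
        linarith
    _ = (8 * R * ε + 8 * R ^ 2 * r) * β := by ring


/-- a subgradient of an `R`-Lipschitz function has norm at most `R` -/
lemma norm_subgrad_le {R : ℝ≥0} {a : E d → ℝ} (ha : LipschitzWith R a) {x t : E d}
    (h : ∀ z, a x + ⟪t, z - x⟫ ≤ a z) : ‖t‖ ≤ R := by
  have h1 := h (x + t)
  have e1 : x + t - x = t := by abel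
  rw [e1, real_inner_self_eq_norm_sq] at h1
  have h2 := ha.dist_le_mul (x + t) x
  rw [Real.dist_eq, dist_eq_norm, e1] at h2
  have h3 := (le_abs_self _).trans h2
  by_contra hlt
  push Not at hlt
  have hpos : 0 < ‖t‖ := lt_of_le_of_lt R.coe_nonneg hlt
  nlinarith

/-- One coordinate, on the whole body (subgradient form). -/
theorem coord_est_K_sub {K : Set (E d)} {R : ℝ≥0} (hK : IsCompact K) (hKc : Convex ℝ K)
    {x0 : E d} {ρ0 : ℝ} (hρ0 : 0 < ρ0) (hball : Metric.closedBall x0 ρ0 ⊆ K) (j : Fin d)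
    {T S : E d → E d} (hT : Measurable T) (hS : Measurable S)
    {a a' : E d → ℝ} (ca : Continuous a) (ca' : Continuous a')
    (btj : ∀ᵐ x ∂(volume.restrict K), |T x j| ≤ R) (bsj : ∀ᵐ x ∂(volume.restrict K), |S x j| ≤ R)
    (t1 : ∀ᵐ x ∂(volume.restrict K), ∀ z, a x + ⟪T x, z - x⟫ ≤ a z)
    (t2 : ∀ᵐ x ∂(volume.restrict K), ∀ z, a' x + ⟪S x, z - x⟫ ≤ a' z)
    {c ε : ℝ} (hk : ∀ x ∈ K, |a' x - a x - c| ≤ ε) :
    ∫ x in K, (S x j - T x j) ^ 2 ≤ 8 * R * ε * (d / ρ0 * (volume K).toReal) := by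
  have hKm := hK.measurableSet
  have hKfin : volume K ≠ ⊤ := hK.measure_lt_top.ne
  have hx0 : x0 ∈ K := hball (Metric.mem_closedBall_self hρ0.le)
  have hε : 0 ≤ ε := (abs_nonneg _).trans (hk x0 hx0)
  have hR0 : (0 : ℝ) ≤ R := R.coe_nonneg
  set V : ℝ := (volume K).toReal with hV
  have hV0 : 0 ≤ V := ENNReal.toReal_nonneg
  have mv : Measurable (fun x => (S x j - T x j) ^ 2) :=
    (((EuclideanSpace.proj j).continuous.measurable.comp hS).sub
      ((EuclideanSpace.proj j).continuous.measurable.comp hT)).pow_const 2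
  have bv : ∀ᵐ x ∂(volume.restrict K), |(S x j - T x j) ^ 2| ≤ 4 * R ^ 2 := by
    filter_upwards [btj, bsj] with x b1 b2
    rw [abs_of_nonneg (by positivity)]
    rw [abs_le] at b1 b2
    nlinarith [b1.1, b1.2, b2.1, b2.2]
  apply le_of_forall_small hρ0 (Q := 12 * R ^ 2 * (d / ρ0 * V)) (by positivity)
  intro r hr0 hr
  obtain ⟨A, hA, hAK, hAw, hβ⟩ := exists_inner_body hK hKc hρ0 hball hr0 hr
  have hwn : ‖(EuclideanSpace.single j r : E d)‖ ≤ r := by
    rw [PiLp.norm_single, Real.norm_eq_abs, abs_of_pos hr0]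
  have h3 := coord_est_sub hKm hKfin hA hAK hr0 j (hAw _ hwn) hT hS ca ca' btj bsj t1 t2 hk
  have h4 := (le_abs_self _).trans (sub_integral_le hA hKfin hAK mv bv)
  set β : ℝ := (volume K).toReal - (volume A).toReal with hβdef
  have hβ' : β ≤ r * (d / ρ0 * V) := by
    calc β ≤ d * (r / ρ0) * V := hβ
      _ = r * (d / ρ0 * V) := by ring
  have h5 : r * ∫ x in A, (S x j - T x j) ^ 2 ≤
      r * ((8 * R * ε + 8 * R ^ 2 * r) * (d / ρ0 * V)) := by
    calc r * ∫ x in A, (S x j - T x j) ^ 2 ≤ (8 * R * ε + 8 * R ^ 2 * r) * β := h3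
      _ ≤ (8 * R * ε + 8 * R ^ 2 * r) * (r * (d / ρ0 * V)) :=
        mul_le_mul_of_nonneg_left hβ' (by positivity)
      _ = r * ((8 * R * ε + 8 * R ^ 2 * r) * (d / ρ0 * V)) := by ring
  have h6 := le_of_mul_le_mul_left h5 hr0
  have h7 : 4 * (R : ℝ) ^ 2 * β ≤ 4 * R ^ 2 * (r * (d / ρ0 * V)) :=
    mul_le_mul_of_nonneg_left hβ' (by positivity)
  calc ∫ x in K, (S x j - T x j) ^ 2
      ≤ (∫ x in A, (S x j - T x j) ^ 2) + 4 * R ^ 2 * β := by linarith
    _ ≤ (8 * R * ε + 8 * R ^ 2 * r) * (d / ρ0 * V) + 4 * R ^ 2 * (r * (d / ρ0 * V)) := by linarith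
    _ = 8 * R * ε * (d / ρ0 * V) + 12 * R ^ 2 * (d / ρ0 * V) * r := by ring

/-- Sup-norm closeness of two Lipschitz potentials on a convex body implies `L²` closeness
of their subgradient maps, linearly in the sup-norm (finite differences, no logarithm). -/
theorem sup_to_L2_sub (K : Set (E d)) (hK : IsCompact K) (hKc : Convex ℝ K)
    (hKi : (interior K).Nonempty) (R : ℝ≥0) :
    ∃ C : ℝ, 0 ≤ C ∧ ∀ (a a' : E d → ℝ), LipschitzWith R a → LipschitzWith R a' →
      ∀ T S : E d → E d, Measurable T → Measurable S →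
      (∀ᵐ x ∂(volume.restrict K), ∀ z, a x + ⟪T x, z - x⟫ ≤ a z) →
      (∀ᵐ x ∂(volume.restrict K), ∀ z, a' x + ⟪S x, z - x⟫ ≤ a' z) →
      ∀ ε c : ℝ, (∀ x ∈ K, |a' x - a x - c| ≤ ε) →
      ∫ x in K, ‖T x - S x‖ ^ 2 ≤ C * ε := by
  obtain ⟨x0, hx0⟩ := hKi
  obtain ⟨ρ0, hρ0, hball⟩ :=
    Metric.nhds_basis_closedBall.mem_iff.mp (mem_interior_iff_mem_nhds.mp hx0)
  have hvT : volume K ≠ ⊤ := hK.measure_lt_top.ne
  refine ⟨d * (8 * R * (d / ρ0 * (volume K).toReal)), by positivity, ?_⟩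
  intro a a' la la' T S hT hS t1 t2 ε c hk
  have bT : ∀ j : Fin d, ∀ᵐ x ∂(volume.restrict K), |T x j| ≤ R := fun j =>
    t1.mono (fun x hx => (abs_coord_le _ j).trans (norm_subgrad_le la hx))
  have bS : ∀ j : Fin d, ∀ᵐ x ∂(volume.restrict K), |S x j| ≤ R := fun j =>
    t2.mono (fun x hx => (abs_coord_le _ j).trans (norm_subgrad_le la' hx))
  have hco := fun j => coord_est_K_sub hK hKc hρ0 hball j hT hS la.continuous la'.continuous
    (bT j) (bS j) t1 t2 hk
  have hKfin : IsFiniteMeasure (volume.restrict K) := ⟨by simpa using hvT.lt_top⟩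
  have iv : ∀ j : Fin d, Integrable (fun x => (S x j - T x j) ^ 2) (volume.restrict K) := by
    intro j
    have mv : Measurable (fun x => (S x j - T x j) ^ 2) :=
      (((EuclideanSpace.proj j).continuous.measurable.comp hS).sub
        ((EuclideanSpace.proj j).continuous.measurable.comp hT)).pow_const 2
    refine Integrable.of_bound mv.aestronglyMeasurable (4 * R ^ 2) ?_
    filter_upwards [bT j, bS j] with x b1 b2
    rw [Real.norm_eq_abs, abs_of_nonneg (by positivity)]
    rw [abs_le] at b1 b2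
    nlinarith [b1.1, b1.2, b2.1, b2.2]
  have e1 : ∫ x in K, ‖T x - S x‖ ^ 2 = ∑ j : Fin d, ∫ x in K, (S x j - T x j) ^ 2 := by
    rw [← integral_finsetSum _ (fun j _ => iv j)]
    congr 1
    ext x
    rw [EuclideanSpace.norm_sq_eq]
    apply Finset.sum_congr rfl
    intro j _
    rw [Real.norm_eq_abs, sq_abs]
    simp only [PiLp.sub_apply]
    ring
  rw [e1]
  have e2 : ∑ j : Fin d, ∫ x in K, (S x j - T x j) ^ 2 ≤
      ∑ _j : Fin d, 8 * R * ε * (d / ρ0 * (volume K).toReal) := Finset.sum_le_sum (fun j _ => hco j)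
  rw [Finset.sum_const, Finset.card_univ, Fintype.card_fin, nsmul_eq_mul] at e2
  refine e2.trans (le_of_eq ?_)
  ring

end Vale.Agent.Lib.P074e
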